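import Vale.Agent.P100.Sys.Jet

/-!
P100: scalar inequalities for the cutoff step.
-/

namespace Vale.Agent.P100.Sys

variable {n : ℕ}

theorem lin_bound {δ : ℝ} (hδ : 0 < δ) {P : ℝ} (hP : 0 ≤ P) (t y a : ℝ) :
    -(δ * y ^ 4 * (P * a ^ 2 + P ^ 2) + t ^ 4 / (64 * δ ^ 3)) ≤ t * y ^ 3 * (P * a) := by
  have h1 : 0 ≤ P * (y ^ 2 * δ) * (a + 0) ^ 2 := by positivity
  have h2 : 0 ≤ P * δ * (y ^ 2 * a + y * t / (2 * δ)) ^ 2 := by positivity
  have h3 : 0 ≤ δ * (P * y ^ 2 - t ^ 2 / (8 * δ ^ 2)) ^ 2 := by positivity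
  have e : t * y ^ 3 * (P * a) + (δ * y ^ 4 * (P * a ^ 2 + P ^ 2) + t ^ 4 / (64 * δ ^ 3)) =
      P * δ * (y ^ 2 * a + y * t / (2 * δ)) ^ 2 + δ * (P * y ^ 2 - t ^ 2 / (8 * δ ^ 2)) ^ 2 := by
    field_simp
    ring
  linarith

theorem bil_bound {δ : ℝ} (hδ : 0 < δ) (t y H a : ℝ) :
    -(δ * y ^ 4 * (H ^ 2 + a ^ 4) + t ^ 4 / (64 * δ ^ 3)) ≤ t * y ^ 3 * (H * a) := by
  have h2 : 0 ≤ δ * (y ^ 2 * H + y * a * t / (2 * δ)) ^ 2 := by positivity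
  have h3 : 0 ≤ δ * (y ^ 2 * a ^ 2 - t ^ 2 / (8 * δ ^ 2)) ^ 2 := by positivity
  have e : t * y ^ 3 * (H * a) + (δ * y ^ 4 * (H ^ 2 + a ^ 4) + t ^ 4 / (64 * δ ^ 3)) =
      δ * (y ^ 2 * H + y * a * t / (2 * δ)) ^ 2 +
        δ * (y ^ 2 * a ^ 2 - t ^ 2 / (8 * δ ^ 2)) ^ 2 := by
    field_simp
    ring
  linarith

theorem sq_le_ip (a : Fin n → ℝ) (i : Fin n) : a i ^ 2 ≤ ip a a := by
  have h := Finset.single_le_sum (f := fun j => a j * a j) (fun j _ => mul_self_nonneg (a j))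
    (Finset.mem_univ i)
  simpa [ip, pow_two] using h

theorem ip_self_nonneg (a : Fin n → ℝ) : 0 ≤ ip a a :=
  Finset.sum_nonneg fun j _ => mul_self_nonneg (a j)

/-- The boundary term of the identity is absorbed by the bulk. -/
theorem bdry_bound (k : ℝ) (c d₁ d₂ d₃ d₄ : ℝ) {ε : ℝ} (hε : 0 < ε) :
    ∃ C : ℝ, 0 ≤ C ∧ ∀ (H : Fin n → Fin n → ℝ) (a b d : Fin n → ℝ) (P₁ P₂ y : ℝ),
      0 ≤ P₁ → 0 ≤ P₂ →
      -(ε * y ^ 4 * bulk H a b P₁ P₂ + C * ∑ i, d i ^ 4) ≤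
        ∑ i, k * d i * y ^ 3 * ((∑ j, H i j * a j) +
          ((c * ip a a) + (d₁ * P₁ + d₃ * P₂)) * a i + (d₂ * P₁ + d₄ * P₂) * b i) := by
  set δ : ℝ := ε / (2 * ((n : ℝ) * (n + 5)) + 1) with hδdef
  have hden : (0 : ℝ) < 2 * ((n : ℝ) * (n + 5)) + 1 := by positivity
  have hδ : 0 < δ := div_pos hε hden
  set C : ℝ := ((n : ℝ) * k ^ 4 + (k * c) ^ 4 + (k * d₁) ^ 4 + (k * d₂) ^ 4 + (k * d₃) ^ 4 +
    (k * d₄) ^ 4) / (64 * δ ^ 3) with hC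
  refine ⟨C, by positivity, fun H a b d P₁ P₂ y hP₁ hP₂ => ?_⟩
  set S := bulk H a b P₁ P₂ with hS
  have hX := ip_self_nonneg a
  have hY := ip_self_nonneg b
  have hfr : 0 ≤ fr H := Finset.sum_nonneg fun i _ => Finset.sum_nonneg fun j _ => sq_nonneg _
  have hPY : 0 ≤ (P₁ + P₂) * ip b b := mul_nonneg (add_nonneg hP₁ hP₂) hY
  have hs1 : ∀ i j, H i j ^ 2 + a j ^ 4 ≤ 2 * S := fun i j => by
    have h1 : H i j ^ 2 ≤ fr H :=
      (Finset.single_le_sum (f := fun j => H i j ^ 2) (fun _ _ => sq_nonneg _)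
        (Finset.mem_univ j)).trans
        (Finset.single_le_sum (f := fun i => ∑ j, H i j ^ 2)
          (fun _ _ => Finset.sum_nonneg fun _ _ => sq_nonneg _) (Finset.mem_univ i))
    have h2 : a j ^ 4 ≤ ip a a ^ 2 := by
      have := pow_le_pow_left₀ (sq_nonneg (a j)) (sq_le_ip a j) 2
      linarith [this, show (a j ^ 2) ^ 2 = a j ^ 4 by ring]
    simp only [hS, bulk]; nlinarith [sq_nonneg P₁, sq_nonneg P₂]
  have hsa : ∀ P, 0 ≤ P → P ^ 2 ≤ ip a a ^ 2 + P₁ ^ 2 + P₂ ^ 2 → ∀ i,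
      P * a i ^ 2 + P ^ 2 ≤ 2 * S := fun P hP hP2 i => by
    have h1 : P * a i ^ 2 ≤ P * ip a a := mul_le_mul_of_nonneg_left (sq_le_ip a i) hP
    simp only [hS, bulk]; nlinarith [sq_nonneg (P - ip a a), sq_nonneg P₁, sq_nonneg P₂]
  have hs2 : ∀ i, ip a a * a i ^ 2 + ip a a ^ 2 ≤ 2 * S :=
    hsa _ hX (by nlinarith [sq_nonneg P₁, sq_nonneg P₂])
  have hs3 : ∀ i, P₁ * a i ^ 2 + P₁ ^ 2 ≤ 2 * S :=
    hsa _ hP₁ (by nlinarith [sq_nonneg (ip a a), sq_nonneg P₂])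
  have hs4 : ∀ i, P₂ * a i ^ 2 + P₂ ^ 2 ≤ 2 * S :=
    hsa _ hP₂ (by nlinarith [sq_nonneg (ip a a), sq_nonneg P₁])
  have hs5 : ∀ i, P₁ * b i ^ 2 + P₁ ^ 2 ≤ 2 * S := fun i => by
    have h1 : P₁ * b i ^ 2 ≤ P₁ * ip b b := mul_le_mul_of_nonneg_left (sq_le_ip b i) hP₁
    simp only [hS, bulk]
    nlinarith [sq_nonneg P₂, sq_nonneg (ip a a), mul_nonneg hP₂ hY]
  have hs6 : ∀ i, P₂ * b i ^ 2 + P₂ ^ 2 ≤ 2 * S := fun i => by
    have h1 : P₂ * b i ^ 2 ≤ P₂ * ip b b := mul_le_mul_of_nonneg_left (sq_le_ip b i) hP₂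
    simp only [hS, bulk]
    nlinarith [sq_nonneg P₁, sq_nonneg (ip a a), mul_nonneg hP₁ hY]
  have hy : (0 : ℝ) ≤ δ * y ^ 4 := by positivity
  have main : ∀ i, -((n + 5 : ℝ) * (2 * S) * (δ * y ^ 4) + C * d i ^ 4) ≤
      k * d i * y ^ 3 * ((∑ j, H i j * a j) +
        ((c * ip a a) + (d₁ * P₁ + d₃ * P₂)) * a i + (d₂ * P₁ + d₄ * P₂) * b i) := by
    intro i
    have t1 : ∀ j, -((2 * S) * (δ * y ^ 4) + k ^ 4 * d i ^ 4 / (64 * δ ^ 3)) ≤
        k * d i * y ^ 3 * (H i j * a j) := fun j => by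
      have h := bil_bound hδ (k * d i) y (H i j) (a j)
      have h' := mul_le_mul_of_nonneg_left (hs1 i j) hy
      rw [mul_pow] at h
      nlinarith
    have t1s := Finset.sum_le_sum (s := Finset.univ) fun j _ => t1 j
    rw [Finset.sum_const, Finset.card_univ, Fintype.card_fin, nsmul_eq_mul, ← Finset.mul_sum]
      at t1s
    have term : ∀ r P z, 0 ≤ P → P * z ^ 2 + P ^ 2 ≤ 2 * S →
        -((2 * S) * (δ * y ^ 4) + (k * r) ^ 4 * d i ^ 4 / (64 * δ ^ 3)) ≤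
          k * d i * y ^ 3 * (r * P * z) := fun r P z hP hb => by
      have h := lin_bound hδ hP (k * r * d i) y z
      have h' := mul_le_mul_of_nonneg_left hb hy
      rw [mul_pow] at h
      nlinarith
    have u1 := term c _ (a i) hX (hs2 i)
    have u2 := term d₁ _ (a i) hP₁ (hs3 i)
    have u3 := term d₃ _ (a i) hP₂ (hs4 i)
    have u4 := term d₂ _ (b i) hP₁ (hs5 i)
    have u5 := term d₄ _ (b i) hP₂ (hs6 i)
    have eC : C * d i ^ 4 = (n : ℝ) * (k ^ 4 * d i ^ 4 / (64 * δ ^ 3)) +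
        (k * c) ^ 4 * d i ^ 4 / (64 * δ ^ 3) + (k * d₁) ^ 4 * d i ^ 4 / (64 * δ ^ 3) +
        (k * d₂) ^ 4 * d i ^ 4 / (64 * δ ^ 3) + (k * d₃) ^ 4 * d i ^ 4 / (64 * δ ^ 3) +
        (k * d₄) ^ 4 * d i ^ 4 / (64 * δ ^ 3) := by rw [hC]; ring
    rw [eC]
    nlinarith
  have tot := Finset.sum_le_sum (s := Finset.univ) fun i _ => main i
  refine le_trans ?_ tot
  rw [Finset.sum_neg_distrib, Finset.sum_add_distrib, ← Finset.mul_sum, Finset.sum_const,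
    Finset.card_univ, Fintype.card_fin, nsmul_eq_mul]
  have hS0 : 0 ≤ S := by simp only [hS, bulk]; positivity
  have hle : (n : ℝ) * (n + 5) * 2 * δ ≤ ε := by
    rw [hδdef, ← mul_div_assoc, div_le_iff₀ hden]
    nlinarith
  have := mul_le_mul_of_nonneg_right hle (show 0 ≤ y ^ 4 * S by positivity)
  rw [← Finset.mul_sum]
  nlinarith

/-- Weighted geometric mean: `u ^ (4/α) ≤ (v^p/u)² + (u^q/v)²`. -/
theorem power_le {p q : ℝ} (hp : 0 < p) (f g : ℝ) :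
    Real.exp (-(2 * (p * q - 1) / (p + 1)) * f) ≤
      Real.exp (f - p * g) ^ 2 + Real.exp (g - q * f) ^ 2 := by
  have h := Real.geom_mean_le_arith_mean2_weighted (w₁ := 1 / (p + 1)) (w₂ := p / (p + 1))
    (p₁ := Real.exp (f - p * g) ^ 2) (p₂ := Real.exp (g - q * f) ^ 2) (by positivity)
    (by positivity) (sq_nonneg _) (sq_nonneg _) (by field_simp; ring)
  have e : Real.exp (-(2 * (p * q - 1) / (p + 1)) * f) =
      (Real.exp (f - p * g) ^ 2) ^ (1 / (p + 1)) * (Real.exp (g - q * f) ^ 2) ^ (p / (p + 1)) := by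
    simp only [← Real.exp_nat_mul, ← Real.exp_mul, ← Real.exp_add]
    congr 1
    push_cast
    field_simp
    ring
  have w1 : 1 / (p + 1) ≤ 1 := by rw [div_le_one (by linarith)]; linarith
  have w2 : p / (p + 1) ≤ 1 := by rw [div_le_one (by linarith)]; linarith
  nlinarith [sq_nonneg (Real.exp (f - p * g)), sq_nonneg (Real.exp (g - q * f))]

/-- Young's inequality for the cutoff term. -/
theorem young {μ τ σ k m : ℝ} (hμ : 0 ≤ μ) (hτ : 0 < τ) (hσ : σ * τ = 4 * (μ + τ))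
    (hm : k * μ / (μ + τ) ≤ m) (hk : 0 < k) {ε : ℝ} (hε : 0 < ε) :
    ∃ C : ℝ, 0 ≤ C ∧ ∀ f y D : ℝ, 0 ≤ y → y ≤ 1 → 0 ≤ D →
      Real.exp (-μ * f) * y ^ m * D ^ 4 ≤ ε * (y ^ k * Real.exp (-(μ + τ) * f)) + C * D ^ σ := by
  have hs : 0 < μ + τ := by linarith
  set θ : ℝ := μ / (μ + τ) with hθdef
  set w : ℝ := τ / (μ + τ) with hwdef
  have hθ : 0 ≤ θ := div_nonneg hμ hs.le
  have hw : 0 < w := div_pos hτ hs
  have hsum : θ + w = 1 := by rw [hθdef, hwdef]; field_simp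
  refine ⟨ε ^ (-θ / w), by positivity, fun f y D hy hy1 hD => ?_⟩
  have h := Real.geom_mean_le_arith_mean2_weighted hθ hw.le
    (p₁ := ε * (y ^ k * Real.exp (-(μ + τ) * f))) (p₂ := ε ^ (-θ / w) * D ^ σ)
    (by positivity) (by positivity) hsum
  have e1 : (ε * (y ^ k * Real.exp (-(μ + τ) * f))) ^ θ =
      ε ^ θ * (y ^ (k * θ) * Real.exp (-μ * f)) := by
    rw [Real.mul_rpow hε.le (by positivity), Real.mul_rpow (by positivity) (by positivity),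
      ← Real.rpow_mul hy, ← Real.exp_mul]
    congr 3
    rw [hθdef]; field_simp
  have e2 : (ε ^ (-θ / w) * D ^ σ) ^ w = ε ^ (-θ) * D ^ (4 : ℕ) := by
    rw [Real.mul_rpow (by positivity) (by positivity), ← Real.rpow_mul hε.le, ← Real.rpow_mul hD,
      div_mul_cancel₀ _ hw.ne',
      show σ * w = ((4 : ℕ) : ℝ) by rw [hwdef, ← mul_div_assoc, hσ]; field_simp; norm_num,
      Real.rpow_natCast]
  have e3 : ε ^ θ * ε ^ (-θ) = 1 := by rw [← Real.rpow_add hε, add_neg_cancel, Real.rpow_zero]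
  have hym : y ^ m ≤ y ^ (k * θ) := by
    have hkm : k * θ ≤ m := by rw [hθdef, ← mul_div_assoc]; exact hm
    exact Real.rpow_le_rpow_of_exponent_ge' hy hy1 (mul_nonneg hk.le hθ) hkm
  calc Real.exp (-μ * f) * y ^ m * D ^ 4
      ≤ Real.exp (-μ * f) * y ^ (k * θ) * D ^ 4 := by gcongr
    _ = (ε ^ θ * (y ^ (k * θ) * Real.exp (-μ * f))) * (ε ^ (-θ) * D ^ 4) := by
        rw [mul_mul_mul_comm, e3, one_mul]; ring
    _ ≤ θ * (ε * (y ^ k * Real.exp (-(μ + τ) * f))) + w * (ε ^ (-θ / w) * D ^ σ) := by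
        rw [← e1, ← e2]; exact h
    _ ≤ _ := by
        have hθ1 : θ ≤ 1 := by linarith
        have hw1 : w ≤ 1 := by linarith
        exact add_le_add (mul_le_of_le_one_left (by positivity) hθ1)
          (mul_le_of_le_one_left (by positivity) hw1)

end Vale.Agent.P100.Sys
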