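import Vale.Agent.P100.Sys.Div

/-!
P100: rules for the partial derivatives, and the equations satisfied by `-log u`, `-log v`.
-/

open MeasureTheory Filter Topology Set Metric
open scoped Laplacian

namespace Vale.Agent.P100.Sys

variable {n : ℕ} {f g F G : EuclideanSpace ℝ (Fin n) → ℝ} {x : EuclideanSpace ℝ (Fin n)}

theorem pd_congr (h : F =ᶠ[𝓝 x] G) (i : Fin n) : pd i F x = pd i G x := by
  rw [pd, pd, h.fderiv_eq]

theorem pd_add (hf : DifferentiableAt ℝ F x) (hg : DifferentiableAt ℝ G x) (i : Fin n) :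
    pd i (fun y => F y + G y) x = pd i F x + pd i G x := by
  simp [pd, fderiv_fun_add hf hg]

theorem pd_sub (hf : DifferentiableAt ℝ F x) (hg : DifferentiableAt ℝ G x) (i : Fin n) :
    pd i (fun y => F y - G y) x = pd i F x - pd i G x := by
  simp [pd, fderiv_fun_sub hf hg]

theorem pd_mul (hf : DifferentiableAt ℝ F x) (hg : DifferentiableAt ℝ G x) (i : Fin n) :
    pd i (fun y => F y * G y) x = F x * pd i G x + pd i F x * G x := by
  simp [pd, fderiv_fun_mul hf hg]; ring

theorem pd_const_mul (hf : DifferentiableAt ℝ F x) (c : ℝ) (i : Fin n) :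
    pd i (fun y => c * F y) x = c * pd i F x := by
  simp [pd, fderiv_const_mul hf]

theorem pd_exp (hf : DifferentiableAt ℝ F x) (i : Fin n) :
    pd i (fun y => Real.exp (F y)) x = Real.exp (F x) * pd i F x := by
  simp [pd, fderiv_exp hf]

theorem pd_sum {ι : Type*} (s : Finset ι) {A : ι → EuclideanSpace ℝ (Fin n) → ℝ}
    (h : ∀ k ∈ s, DifferentiableAt ℝ (A k) x) (i : Fin n) :
    pd i (fun y => ∑ k ∈ s, A k y) x = ∑ k ∈ s, pd i (A k) x := by
  simp [pd, fderiv_fun_sum h]

theorem pd_sq (hf : DifferentiableAt ℝ F x) (i : Fin n) :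
    pd i (fun y => F y ^ 2) x = 2 * (F x * pd i F x) := by
  simp only [pow_two, pd_mul hf hf]; ring

theorem laplacian_eq_lap (hf : ContDiffAt ℝ 2 f x) : Δ f x = lap f x := by
  rw [InnerProductSpace.laplacian_eq_iteratedFDeriv_orthonormalBasis f
    (EuclideanSpace.basisFun (Fin n) ℝ)]
  refine Finset.sum_congr rfl fun i _ => ?_
  have hd : DifferentiableAt ℝ (fderiv ℝ f) x :=
    (hf.fderiv_right (m := 1) (by norm_num)).differentiableAt (by norm_num)
  show _ = fderiv ℝ (fun y => fderiv ℝ f y (EuclideanSpace.single i 1)) x _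
  rw [fderiv_clm_apply hd (differentiableAt_const _)]
  simp [iteratedFDeriv_two_apply]

/-- The Laplacian of minus a logarithm. -/
theorem lap_neg_log {u : EuclideanSpace ℝ (Fin n) → ℝ} (hu : ∀ᶠ y in 𝓝 x, 0 < u y)
    (h2 : ContDiffAt ℝ 2 u x) :
    lap (fun y => -Real.log (u y)) x =
      (∑ i, pd i (fun y => -Real.log (u y)) x ^ 2) + -lap u x / u x := by
  have hev : ∀ᶠ y in 𝓝 x, 0 < u y ∧ DifferentiableAt ℝ u y :=
    hu.and ((h2.eventually (by simp)).mono fun y hy => hy.differentiableAt (by norm_num))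
  have h1 : ∀ i : Fin n, (fun y => pd i (fun z => -Real.log (u z)) y) =ᶠ[𝓝 x]
      fun y => -(pd i u y * (u y)⁻¹) := fun i => by
    filter_upwards [hev] with y hy
    simp [pd, fderiv.log hy.2 hy.1.ne', mul_comm]
  have hx : 0 < u x := hu.self_of_nhds
  have hdu : DifferentiableAt ℝ u x := h2.differentiableAt (by norm_num)
  have hdpd : ∀ i, DifferentiableAt ℝ (pd i u) x := fun i =>
    ((h2.fderiv_right (m := 1) (by norm_num)).differentiableAt (by norm_num)).clm_apply
      (differentiableAt_const _)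
  have hinv : HasFDerivAt (fun y => (u y)⁻¹) (-(u x ^ 2)⁻¹ • fderiv ℝ u x) x :=
    (hasDerivAt_inv hx.ne').comp_hasFDerivAt x hdu.hasFDerivAt
  have key : ∀ i, pd i (pd i fun y => -Real.log (u y)) x =
      pd i (fun y => -Real.log (u y)) x ^ 2 + -pd i (pd i u) x / u x := by
    intro i
    rw [pd_congr (h1 i),
      show pd i (fun y => -Real.log (u y)) x = -(pd i u x * (u x)⁻¹) from (h1 i).self_of_nhds]
    have hh := ((hdpd i).hasFDerivAt.mul hinv).neg
    rw [show pd i (fun y => -(pd i u y * (u y)⁻¹)) x = _ from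
      congrArg (fun L => L (EuclideanSpace.single i 1)) hh.fderiv]
    simp [pd]
    field_simp
    ring
  simp only [lap, Finset.sum_congr rfl fun i _ => key i, Finset.sum_add_distrib]
  simp only [div_eq_mul_inv, ← Finset.sum_mul, Finset.sum_neg_distrib]

end Vale.Agent.P100.Sys
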