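import Vale.Agent.P100.Sys.Log

/-!
P100: cutoff functions of an annulus.
-/

open MeasureTheory Filter Topology Set Metric

namespace Vale.Agent.P100.Sys

variable {n : ℕ}

/-- A fixed profile: one on the unit ball, zero outside the ball of radius two. -/
noncomputable def bump (n : ℕ) : ContDiffBump (0 : EuclideanSpace ℝ (Fin n)) :=
  ⟨1, 2, one_pos, one_lt_two⟩

/-- One on the ball of radius `R`, zero outside the ball of radius `2R`. -/
noncomputable def cut (n : ℕ) (R : ℝ) (x : EuclideanSpace ℝ (Fin n)) : ℝ := bump n (R⁻¹ • x)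

variable {R : ℝ} {x : EuclideanSpace ℝ (Fin n)}

theorem contDiff_cut : ContDiff ℝ 2 (cut n R) :=
  (bump n).contDiff.comp (contDiff_const_smul _)

theorem cut_nonneg : 0 ≤ cut n R x := (bump n).nonneg

theorem cut_le_one : cut n R x ≤ 1 := (bump n).le_one

theorem cut_eq_one (hR : 0 < R) (hx : ‖x‖ ≤ R) : cut n R x = 1 :=
  (bump n).one_of_mem_closedBall (by
    rw [mem_closedBall_zero_iff, norm_smul, norm_inv, Real.norm_eq_abs, abs_of_pos hR]
    show R⁻¹ * ‖x‖ ≤ 1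
    rw [inv_mul_le_iff₀ hR, mul_one]; exact hx)

theorem cut_eq_zero (hR : 0 < R) (hx : 2 * R ≤ ‖x‖) : cut n R x = 0 :=
  (bump n).zero_of_le_dist (by
    rw [dist_zero_right, norm_smul, norm_inv, Real.norm_eq_abs, abs_of_pos hR]
    show (2 : ℝ) ≤ R⁻¹ * ‖x‖
    rw [le_inv_mul_iff₀ hR]; linarith)

theorem fderiv_cut : fderiv ℝ (cut n R) x = R⁻¹ • fderiv ℝ (bump n) (R⁻¹ • x) := by
  show fderiv ℝ (fun y => bump n (R⁻¹ • y)) x = _
  have h := (((bump n).contDiff (n := 2)).differentiable (by norm_num) (R⁻¹ • x)).hasFDerivAt.comp x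
    ((hasFDerivAt_id x).const_smul R⁻¹)
  rw [show (fun y => bump n (R⁻¹ • y)) = (bump n) ∘ (HSMul.hSMul R⁻¹) from rfl, h.fderiv]
  ext z
  simp

/-- The gradient of the profile is bounded. -/
theorem fderiv_cut_bound (n : ℕ) :
    ∃ B : ℝ, 0 < B ∧ ∀ R : ℝ, 0 < R → ∀ x : EuclideanSpace ℝ (Fin n),
      ‖fderiv ℝ (cut n R) x‖ ≤ B / R := by
  obtain ⟨B, hB⟩ := ((bump n).hasCompactSupport.fderiv ℝ).exists_bound_of_continuous
    ((bump n).contDiff.continuous_fderiv (n := 2) (by norm_num))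
  refine ⟨max B 1, by positivity, fun R hR x => ?_⟩
  rw [fderiv_cut, norm_smul, norm_inv, Real.norm_eq_abs, abs_of_pos hR, div_eq_inv_mul]
  exact mul_le_mul_of_nonneg_left ((hB _).trans (le_max_left _ _)) (by positivity)

theorem fderiv_cut_eq_zero (hR : 0 < R) (hx : 2 * R < ‖x‖) : fderiv ℝ (cut n R) x = 0 := by
  have h : cut n R =ᶠ[𝓝 x] fun _ => (0 : ℝ) :=
    ((continuous_norm.tendsto x).eventually (eventually_gt_nhds hx)).mono
      fun y hy => cut_eq_zero hR hy.le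
  rw [h.fderiv_eq]
  simp

/-- The annulus cutoff. -/
noncomputable def ann (n : ℕ) (ρ R : ℝ) (x : EuclideanSpace ℝ (Fin n)) : ℝ :=
  cut n R x * (1 - cut n ρ x)

variable {ρ : ℝ}

theorem contDiff_ann : ContDiff ℝ 2 (ann n ρ R) :=
  contDiff_cut.mul (contDiff_const.sub contDiff_cut)

theorem ann_nonneg : 0 ≤ ann n ρ R x := mul_nonneg cut_nonneg (sub_nonneg.2 cut_le_one)

theorem ann_le_one : ann n ρ R x ≤ 1 :=
  mul_le_one₀ cut_le_one (sub_nonneg.2 cut_le_one) (sub_le_self _ cut_nonneg)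

theorem ann_eq_one (hρ : 0 < ρ) (hR : 0 < R) (h1 : 2 * ρ ≤ ‖x‖) (h2 : ‖x‖ ≤ R) :
    ann n ρ R x = 1 := by
  simp [ann, cut_eq_one hR h2, cut_eq_zero hρ h1]

theorem ann_support (hρ : 0 < ρ) (hR : 0 < R) :
    tsupport (ann n ρ R) ⊆ closedBall 0 (2 * R) \ ball 0 ρ := by
  refine closure_minimal (fun x hx => ?_) (isClosed_closedBall.sdiff isOpen_ball)
  simp only [Set.mem_sdiff, mem_closedBall_zero_iff, mem_ball_zero_iff, not_lt]
  constructor
  · by_contra h
    exact hx (by simp [ann, cut_eq_zero hR (le_of_lt (not_le.1 h))])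
  · by_contra h
    exact hx (by simp [ann, cut_eq_one hρ (le_of_lt (not_le.1 h))])

theorem pd_ann_pow_four (i : Fin n) :
    pd i (ann n ρ R) x ^ 4 ≤ 8 * (‖fderiv ℝ (cut n R) x‖ ^ 4 + ‖fderiv ℝ (cut n ρ) x‖ ^ 4) := by
  have hA : DifferentiableAt ℝ (cut n R) x := contDiff_cut.differentiable (by norm_num) x
  have hB : DifferentiableAt ℝ (cut n ρ) x := contDiff_cut.differentiable (by norm_num) x
  have e : pd i (ann n ρ R) x =
      cut n R x * -pd i (cut n ρ) x + pd i (cut n R) x * (1 - cut n ρ x) := by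
    show pd i (fun y => cut n R y * (1 - cut n ρ y)) x = _
    rw [pd_mul hA (hB.const_sub 1), pd_sub (differentiableAt_const _) hB]
    simp [pd]
  have bd : ∀ r, |pd i (cut n r) x| ≤ ‖fderiv ℝ (cut n r) x‖ := fun r => by
    have h := (fderiv ℝ (cut n r) x).le_opNorm (EuclideanSpace.single i (1 : ℝ))
    simpa [pd] using h
  have e1 : |cut n R x * -pd i (cut n ρ) x| ≤ ‖fderiv ℝ (cut n ρ) x‖ := by
    rw [abs_mul, abs_neg, abs_of_nonneg cut_nonneg]
    exact (mul_le_of_le_one_left (abs_nonneg _) cut_le_one).trans (bd ρ)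
  have e2 : |pd i (cut n R) x * (1 - cut n ρ x)| ≤ ‖fderiv ℝ (cut n R) x‖ := by
    rw [abs_mul, abs_of_nonneg (sub_nonneg.2 cut_le_one)]
    exact (mul_le_of_le_one_right (abs_nonneg _) (sub_le_self _ cut_nonneg)).trans (bd R)
  set s := ‖fderiv ℝ (cut n ρ) x‖
  set t := ‖fderiv ℝ (cut n R) x‖
  have h : |pd i (ann n ρ R) x| ≤ s + t := by
    rw [e]; exact (abs_add_le _ _).trans (add_le_add e1 e2)
  calc pd i (ann n ρ R) x ^ 4 = |pd i (ann n ρ R) x| ^ 4 := by
        rw [Even.pow_abs (by decide)]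
    _ ≤ (s + t) ^ 4 := pow_le_pow_left₀ (abs_nonneg _) h 4
    _ ≤ 8 * (t ^ 4 + s ^ 4) := by
        nlinarith [mul_nonneg (sq_nonneg (s - t)) (sq_nonneg (s + t)),
          mul_nonneg (sq_nonneg (s - t)) (sq_nonneg (s - t)), sq_nonneg (s ^ 2 - t ^ 2)]

/-- The integral of a power of the gradient of the profile scales like `R ^ (n - σ)`. -/
theorem integral_fderiv_cut {σ : ℝ} (hσ : 0 < σ) (n : ℕ) :
    ∃ B : ℝ, ∀ R : ℝ, 0 < R →
      Integrable (fun x : EuclideanSpace ℝ (Fin n) => ‖fderiv ℝ (cut n R) x‖ ^ σ) ∧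
      ∫ x, ‖fderiv ℝ (cut n R) x‖ ^ σ ≤ B * R ^ ((n : ℝ) - σ) := by
  obtain ⟨B, hB0, hB⟩ := fderiv_cut_bound n
  refine ⟨B ^ σ * 2 ^ n * volume.real (closedBall (0 : EuclideanSpace ℝ (Fin n)) 1), fun R hR => ?_⟩
  have hcont : Continuous fun x : EuclideanSpace ℝ (Fin n) => ‖fderiv ℝ (cut n R) x‖ ^ σ :=
    ((contDiff_cut.continuous_fderiv (by norm_num)).norm).rpow_const fun _ => Or.inr hσ.le
  have hz : ∀ x ∉ closedBall (0 : EuclideanSpace ℝ (Fin n)) (2 * R),
      ‖fderiv ℝ (cut n R) x‖ ^ σ = 0 := fun x hx => by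
    rw [fderiv_cut_eq_zero hR (by simpa using hx), norm_zero, Real.zero_rpow hσ.ne']
  have hint := integrable_of_support isOpen_univ (isCompact_closedBall (0 : EuclideanSpace ℝ (Fin n))
    (2 * R)) (subset_univ _) hcont.continuousOn hz
  refine ⟨hint, ?_⟩
  rw [← setIntegral_eq_integral_of_forall_compl_eq_zero hz]
  calc ∫ x in closedBall 0 (2 * R), ‖fderiv ℝ (cut n R) x‖ ^ σ
      ≤ ∫ _ in closedBall (0 : EuclideanSpace ℝ (Fin n)) (2 * R), (B / R) ^ σ :=
        setIntegral_mono hint.integrableOn (integrableOn_const measure_closedBall_lt_top.ne)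
          fun x => Real.rpow_le_rpow (norm_nonneg _) (hB R hR x) hσ.le
    _ = _ := by
      rw [setIntegral_const, smul_eq_mul,
        Measure.addHaar_real_closedBall' volume 0 (by positivity), finrank_euclideanSpace_fin,
        Real.div_rpow hB0.le hR.le, mul_pow, Real.rpow_sub hR, Real.rpow_natCast]
      ring

end Vale.Agent.P100.Sys
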