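import Vale.Agent.P100.Sys.Div

/-!
P100, the weak Bochner identity: for `f ∈ C²` with `lap f ∈ C¹` and a `C²` test function `ψ`,
`∫ ψ (|D²f|² + Df · D lap f) + D²f (Df, Dψ) = 0`. It follows from the weak commutation by testing
with `ψ` times the difference quotients of `f`.
-/

open MeasureTheory Filter Topology Set Metric

namespace Vale.Agent.P100.Sys

variable {n : ℕ}
variable {f ψ : EuclideanSpace ℝ (Fin n) → ℝ} {Ω : Set (EuclideanSpace ℝ (Fin n))}

theorem bochner (hΩ : IsOpen Ω) (hf : ContDiffOn ℝ 2 f Ω) (hl : ContDiffOn ℝ 1 (lap f) Ω)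
    (hψ : ContDiff ℝ 2 ψ) (hc : HasCompactSupport ψ) (hs : tsupport ψ ⊆ Ω) (j : Fin n) :
    (∑ i, ((∫ x, pd j (pd i f) x * pd i ψ x * pd j f x) +
        ∫ x, pd j (pd i f) x * ψ x * pd j (pd i f) x)) +
      ∫ x, pd j (lap f) x * ψ x * pd j f x = 0 := by
  obtain ⟨δ, hδ, hδΩ⟩ := hc.exists_cthickening_subset_open hΩ hs
  set e : EuclideanSpace ℝ (Fin n) := EuclideanSpace.single j 1 with he
  set t : ℕ → ℝ := fun k => δ / ((k : ℝ) + 1) with htdef
  have ht0 : ∀ k, t k ≠ 0 := fun k => (div_pos hδ (Nat.cast_add_one_pos k)).ne'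
  have ht : Tendsto t atTop (𝓝 0) := by
    simpa [htdef, div_eq_mul_inv] using
      tendsto_one_div_add_atTop_nhds_zero_nat.const_mul δ
  have hmem : ∀ k, ∀ x ∈ tsupport ψ, x + t k • e ∈ Ω := fun k x hx => hδΩ
    (mem_cthickening_of_dist_le _ x δ _ hx (by
      rw [dist_self_add_left, norm_smul]
      simp only [he, PiLp.norm_single, norm_one, mul_one, Real.norm_eq_abs, htdef]
      rw [abs_of_pos (div_pos hδ (Nat.cast_add_one_pos k))]
      exact div_le_self hδ.le (by simp)))
  have hf1 : ∀ i, ContDiffOn ℝ 1 (pd i f) Ω := contDiffOn_pd hΩ hf (by norm_num)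
  have hψc : ∀ i, Continuous (pd i ψ) := fun i =>
    (hψ.continuous_fderiv (by norm_num)).clm_apply continuous_const
  -- the test functions
  set G : ℕ → Set (EuclideanSpace ℝ (Fin n)) := fun k => {x | x + t k • e ∈ Ω} ∩ Ω with hG
  have hGo : ∀ k, IsOpen (G k) := fun k => (hΩ.preimage (by fun_prop)).inter hΩ
  have hGs : ∀ k, tsupport ψ ⊆ G k := fun k x hx => ⟨hmem k x hx, hs hx⟩
  set φ : ℕ → EuclideanSpace ℝ (Fin n) → ℝ :=
    fun k x => ψ x * ((f (x + t k • e) - f x) / t k) with hφdef
  have hφs : ∀ k, tsupport (φ k) ⊆ tsupport ψ := fun k => tsupport_mul_subset_left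
  have hφc : ∀ k, HasCompactSupport (φ k) := fun k =>
    hc.of_isClosed_subset (isClosed_tsupport _) (hφs k)
  have hφd : ∀ k, ContDiff ℝ 2 (φ k) := fun k =>
    contDiff_of_tsupport_subset (hGo k) (hψ.contDiffOn.mul
      (((hf.comp (by fun_prop) fun x hx => hx.1).sub (hf.mono inter_subset_right)).div_const _))
      ((hφs k).trans (hGs k))
  have hpd : ∀ k i x, pd i (φ k) x = pd i ψ x * ((f (x + t k • e) - f x) / t k) +
      ψ x * ((pd i f (x + t k • e) - pd i f x) / t k) := by
    intro k i x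
    by_cases hx : x ∈ tsupport ψ
    · have h1 : DifferentiableAt ℝ f x :=
        (hf.contDiffAt (hΩ.mem_nhds (hs hx))).differentiableAt (by norm_num)
      have h2 : DifferentiableAt ℝ f (x + t k • e) :=
        (hf.contDiffAt (hΩ.mem_nhds (hmem k x hx))).differentiableAt (by norm_num)
      have h3 : HasFDerivAt (fun y => f (y + t k • e)) (fderiv ℝ f (x + t k • e)) x :=
        (hasFDerivAt_comp_add_right (t k • e)).2 h2.hasFDerivAt
      have h4 := ((hψ.differentiable (by norm_num) x).hasFDerivAt.mul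
        ((h3.sub h1.hasFDerivAt).mul_const (t k)⁻¹))
      have h5 : HasFDerivAt (φ k) _ x := h4.congr_of_eventuallyEq
        (Eventually.of_forall fun y => by simp [hφdef, div_eq_mul_inv])
      simp only [pd, h5.fderiv, div_eq_mul_inv, add_apply,
        smul_apply, sub_apply, smul_eq_mul, Pi.sub_apply]
      ring
    · rw [pd_eq_zero_of_notMem i (fun h => hx (hφs k h)), pd_eq_zero_of_notMem i hx,
        image_eq_zero_of_notMem_tsupport hx]
      simp
  have hjc : ∀ i, ContinuousOn (pd j (pd i f)) Ω := fun i =>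
    continuousOn_pd hΩ (hf1 i) le_rfl j
  have hlc : ContinuousOn (pd j (lap f)) Ω := continuousOn_pd hΩ hl le_rfl j
  have hint : ∀ (k : ℕ) (a b c : EuclideanSpace ℝ (Fin n) → ℝ), ContinuousOn a Ω →
      Continuous b → (∀ x ∉ tsupport ψ, b x = 0) → ContinuousOn c Ω →
      Integrable fun x => a x * b x * ((c (x + t k • e) - c x) / t k) := by
    intro k a b c ha hb hb0 hcc
    refine integrable_of_support (hGo k) hc (hGs k) ?_ fun x hx => by simp [hb0 x hx]
    exact ((ha.mono inter_subset_right).mul hb.continuousOn).mul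
      (((hcc.comp (by fun_prop) fun x hx => hx.1).sub (hcc.mono inter_subset_right)).div_const _)
  have hzero : ∀ k,
      (∑ i, ((∫ x, pd j (pd i f) x * pd i ψ x * ((f (x + t k • e) - f x) / t k)) +
        ∫ x, pd j (pd i f) x * ψ x * ((pd i f (x + t k • e) - pd i f x) / t k))) +
      ∫ x, pd j (lap f) x * ψ x * ((f (x + t k • e) - f x) / t k) = 0 := by
    intro k
    rw [← weak_commute hΩ hf hl (hφd k) (hφc k) ((hφs k).trans hs) j]
    congr 1
    · refine Finset.sum_congr rfl fun i _ => ?_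
      rw [← integral_add
        (hint k _ _ _ (hjc i) (hψc i) (fun x hx => pd_eq_zero_of_notMem i hx) hf.continuousOn)
        (hint k _ _ _ (hjc i) hψ.continuous (fun x hx => image_eq_zero_of_notMem_tsupport hx)
          (hf1 i).continuousOn)]
      exact integral_congr_ae (Eventually.of_forall fun x => by simp only [hpd]; ring)
    · exact integral_congr_ae (Eventually.of_forall fun x => by simp only [hφdef]; ring)
  refine tendsto_nhds_unique ?_ (tendsto_const_nhds (x := (0 : ℝ)) (f := atTop (α := ℕ)))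
  refine Tendsto.congr hzero ?_
  refine (tendsto_finsetSum _ fun i _ => ?_).add ?_
  · refine Tendsto.add ?_ ?_
    · exact tendsto_quotient hΩ hc hs ((hjc i).mul (hψc i).continuousOn)
        (fun x hx => by simp [pd_eq_zero_of_notMem i hx]) (hf.of_le (by norm_num)) j ht ht0
    · exact tendsto_quotient hΩ hc hs ((hjc i).mul hψ.continuous.continuousOn)
        (fun x hx => by simp [image_eq_zero_of_notMem_tsupport hx]) (hf1 i) j ht ht0
  · exact tendsto_quotient hΩ hc hs (hlc.mul hψ.continuous.continuousOn)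
      (fun x hx => by simp [image_eq_zero_of_notMem_tsupport hx]) (hf.of_le (by norm_num)) j ht ht0

end Vale.Agent.P100.Sys
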