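import Vale.Agent.P100.Sys.CertPoly

/-!
P100: the two polynomial inequalities behind the parameter choice for the region
`α + β ≥ n - 2 + 7/40`. The variables are `A = α D`, `B = β D` for a positive factor `D`.
-/

namespace Vale.Agent.P100.Sys.Cert

noncomputable section

variable (A B D : ℝ)

/-- Thirty times the cube of `A`. -/
def a3 : ℝ := 30 * (A * A * A)
/-- The dimension parameter. -/
def nn : ℝ := A + B + 73 / 40 * D
/-- The shift. -/
def sg : ℝ := B * (30 * A * A + 35 * (A - B) * D + 3 * D * D)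
/-- The weight. -/
def ii : ℝ := 30 * (A + B - 2 * D) * A * A + 15 * B * (7 * A - 6 * B) * D
/-- The exponent `q`. -/
def qq : ℝ := 30 * (B + 2 * D) * A * A
/-- `i + q - 4σ`. -/
def ww : ℝ := ii A B D + qq A B D - 4 * sg A B D
/-- `1 - i + 2σ(1-p)`. -/
def mm : ℝ := (a3 A - ii A B D) * B + 2 * sg A B D * (B - A - 2 * D)
/-- Twice `τ`. -/
def tt : ℝ := ww A B D - a3 A
/-- Twice `s`. -/
def ss : ℝ := 2 * sg A B D * sg A B D - ww A B D * (a3 A - ii A B D - qq A B D)
/-- Numerator of `G₀`. -/
def g0 : ℝ := -4 * mm A B D * a3 A - (A + 2 * D) * tt A B D * tt A B D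
/-- Numerator of `G₁`. -/
def g1 : ℝ :=
  -4 * mm A B D * (2 * a3 A - ii A B D) * a3 A * B +
    4 * sg A B D * sg A B D * a3 A * (A + 2 * D) * (B - A - 2 * D) +
    2 * (A + 2 * D) * B * ss A B D * tt A B D
/-- Numerator of the constant part of the mixed coefficient. -/
def k0 : ℝ := 4 * a3 A * (D - nn A B D) + 3 * ii A B D * nn A B D
/-- Numerator of the slope of the mixed coefficient. -/
def k1 : ℝ := 2 * D + nn A B D
/-- Numerator of the constant part of the `X²` coefficient. -/
def x0 : ℝ := 2 * a3 A * a3 A * D + nn A B D * (ii A B D - 2 * a3 A) * (a3 A - ii A B D)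
/-- Numerator of the linear part of the `X²` coefficient. -/
def x1 : ℝ := 2 * a3 A * D + nn A B D * (a3 A - ii A B D)
/-- Numerator of the mixed coefficient at `k = 0`. -/
def aa : ℝ := k0 A B D * g0 A B D * B + 2 * (nn A B D - D) * g1 A B D
/-- Numerator of the `X²` coefficient at the root of the mixed coefficient. -/
def pp : ℝ :=
  2 * x0 A B D * k1 A B D * k1 A B D * g0 A B D * g0 A B D * B * B -
    2 * x1 A B D * aa A B D * k1 A B D * g0 A B D * B -
    (nn A B D - D) * aa A B D * aa A B D -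
    4 * (nn A B D - D) * ss A B D * ss A B D * k1 A B D * k1 A B D * g0 A B D * B * B *
      (A + 2 * D)

end

open Vale.Agent.P100.Sys.Poly

/-- The two inequalities on the whole parameter region. -/
theorem g0_pp_pos {x t : ℝ} (hx : 0 ≤ x) (ht : 0 ≤ t) {A B D : ℝ}
    (hA : A = (40 * x + 127) * (1 + t)) (hB : B = 40 * x + 127) (hD : D = 40 * (t + 2)) :
    0 < g0 A B D ∧ 0 < pp A B D := by
  have eB : ev x t pB = B := by simp only [pB, hB, ev, ev1]; push_cast; ring
  have eA : ev x t pA = A := by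
    rw [pA, ev_mul, eB, hB, hA]; simp [ev, ev1]
  have eD : ev x t pD = D := by simp only [pD, hD, ev, ev1]; push_cast; ring
  have eN : ev x t pN = nn A B D := by
    simp only [pN, nn, ev_add, eA, eB, hD, ev, ev1]; push_cast; ring
  have e3 : ev x t pA3 = a3 A := by simp only [pA3, a3, ev_smul, ev_mul, eA]; push_cast; ring
  have eSg : ev x t pSg = sg A B D := by
    simp only [pSg, sg, ev_add, ev_sub, ev_smul, ev_mul, eA, eB, eD]; push_cast; ring
  have eI : ev x t pI = ii A B D := by
    simp only [pI, ii, ev_add, ev_sub, ev_smul, ev_mul, eA, eB, eD]; push_cast; ring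
  have eQ : ev x t pQ = qq A B D := by
    simp only [pQ, qq, ev_add, ev_smul, ev_mul, eA, eB, eD]; push_cast; ring
  have eW : ev x t pW = ww A B D := by simp only [pW, ww, ev_add, ev_sub, ev_smul, eI, eQ, eSg]; push_cast; ring
  have eE : ev x t pE = B - A - 2 * D := by simp only [pE, ev_sub, ev_smul, eA, eB, eD]; push_cast; ring
  have ePa : ev x t pPa = A + 2 * D := by simp only [pPa, ev_add, ev_smul, eA, eD]; push_cast; ring
  have eM : ev x t pM = mm A B D := by
    simp only [pM, mm, ev_add, ev_sub, ev_smul, ev_mul, e3, eI, eB, eSg, eE]; push_cast; ring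
  have eT : ev x t pT = tt A B D := by simp only [pT, tt, ev_sub, eW, e3]
  have eS : ev x t pS = ss A B D := by
    simp only [pS, ss, ev_sub, ev_smul, ev_mul, eSg, eW, e3, eI, eQ]; push_cast; ring
  have eG0 : ev x t pG0 = g0 A B D := by
    simp only [pG0, g0, ev_sub, ev_smul, ev_mul, eM, e3, ePa, eT]; push_cast; ring
  have eG1 : ev x t pG1 = g1 A B D := by
    simp only [pG1, g1, ev_add, ev_sub, ev_smul, ev_mul, eM, e3, eI, eB, eSg, ePa, eE, eS, eT]; push_cast; ring
  have eK0 : ev x t pK0 = k0 A B D := by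
    simp only [pK0, k0, ev_add, ev_sub, ev_smul, ev_mul, e3, eD, eN, eI]; push_cast; ring
  have eK1 : ev x t pK1 = k1 A B D := by simp only [pK1, k1, ev_add, ev_smul, eD, eN]; push_cast; ring
  have eX0 : ev x t pX0 = x0 A B D := by
    simp only [pX0, x0, ev_add, ev_sub, ev_smul, ev_mul, e3, eD, eN, eI]; push_cast; ring
  have eX1 : ev x t pX1 = x1 A B D := by
    simp only [pX1, x1, ev_add, ev_sub, ev_smul, ev_mul, e3, eD, eN, eI]; push_cast; ring
  have eR : ev x t pR = nn A B D - D := by simp only [pR, ev_sub, eN, eD]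
  have eAA : ev x t pAA = aa A B D := by
    simp only [pAA, aa, ev_add, ev_smul, ev_mul, eK0, eG0, eB, eR, eG1]; push_cast; ring
  have eL : ev x t pL = k1 A B D * g0 A B D * B := by simp only [pL, ev_mul, eK1, eG0, eB]
  have eP : ev x t pP = pp A B D := by
    simp only [pP, pp, ev_sub, ev_smul, ev_mul, eX0, eX1, eAA, eL, eR, eS, eK1, eB, ePa]; push_cast; ring
  exact ⟨eG0 ▸ ev_pos hx ht _ good_G0, eP ▸ ev_pos hx ht _ good_P⟩

end Vale.Agent.P100.Sys.Cert
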