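import Vale.Agent.P100.Sys.Poly

/-!
P100: integer polynomials in the two certificate variables, and positivity of their coefficients.
-/

namespace Vale.Agent.P100.Sys.Cert

open Vale.Agent.P100.Sys.Poly

/-- Difference. -/
def sub (l m : List (List ℤ)) : List (List ℤ) := add l (smul (-1) m)

theorem ev_sub (x t : ℝ) (l m : List (List ℤ)) : ev x t (sub l m) = ev x t l - ev x t m := by
  simp [sub, ev_add, ev_smul, sub_eq_add_neg]

def pB : List (List ℤ) := [[127], [40]]
def pA : List (List ℤ) := mul pB [[1, 1]]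
def pD : List (List ℤ) := [[80, 40]]
def pA3 : List (List ℤ) := smul 30 (mul (mul pA pA) pA)
def pN : List (List ℤ) := add (add pA pB) [[146, 73]]
def pSg : List (List ℤ) :=
  mul pB (add (add (smul 30 (mul pA pA)) (smul 35 (mul (sub pA pB) pD))) (smul 3 (mul pD pD)))
def pI : List (List ℤ) :=
  add (smul 30 (mul (mul (sub (add pA pB) (smul 2 pD)) pA) pA))
    (smul 15 (mul (mul pB (sub (smul 7 pA) (smul 6 pB))) pD))
def pQ : List (List ℤ) := smul 30 (mul (mul (add pB (smul 2 pD)) pA) pA)
def pW : List (List ℤ) := sub (add pI pQ) (smul 4 pSg)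
def pE : List (List ℤ) := sub (sub pB pA) (smul 2 pD)
def pPa : List (List ℤ) := add pA (smul 2 pD)
def pM : List (List ℤ) := add (mul (sub pA3 pI) pB) (smul 2 (mul pSg pE))
def pT : List (List ℤ) := sub pW pA3
def pS : List (List ℤ) := sub (smul 2 (mul pSg pSg)) (mul pW (sub (sub pA3 pI) pQ))
def pG0 : List (List ℤ) := sub (smul (-4) (mul pM pA3)) (mul (mul pPa pT) pT)
def pG1 : List (List ℤ) :=
  add (add (smul (-4) (mul (mul (mul pM (sub (smul 2 pA3) pI)) pA3) pB))
    (smul 4 (mul (mul (mul (mul pSg pSg) pA3) pPa) pE)))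
    (smul 2 (mul (mul (mul pPa pB) pS) pT))
def pK0 : List (List ℤ) := add (smul 4 (mul pA3 (sub pD pN))) (smul 3 (mul pI pN))
def pK1 : List (List ℤ) := add (smul 2 pD) pN
def pX0 : List (List ℤ) :=
  add (smul 2 (mul (mul pA3 pA3) pD)) (mul (mul pN (sub pI (smul 2 pA3))) (sub pA3 pI))
def pX1 : List (List ℤ) := add (smul 2 (mul pA3 pD)) (mul pN (sub pA3 pI))
def pR : List (List ℤ) := sub pN pD
def pL : List (List ℤ) := mul (mul pK1 pG0) pB
def pAA : List (List ℤ) := add (mul (mul pK0 pG0) pB) (smul 2 (mul pR pG1))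
def pP : List (List ℤ) :=
  sub (sub (sub (smul 2 (mul pX0 (mul pL pL))) (smul 2 (mul pX1 (mul pAA pL))))
    (mul pR (mul pAA pAA)))
    (smul 4 (mul (mul (mul (mul pR (mul pS pS)) (mul pK1 pL)) pB) pPa))

theorem good_G0 : good pG0 = true := by decide +kernel

theorem good_P : good pP = true := by decide +kernel

end Vale.Agent.P100.Sys.Cert
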