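import Mathlib

/-!
P100, integral identities on a Euclidean space: integration by parts along the coordinates and
the weak Bochner identity for a `C²` function whose Laplacian is `C¹`.
-/

open MeasureTheory Filter Topology Set Metric

namespace Vale.Agent.P100.Sys

variable {n : ℕ}

/-- The `i`th partial derivative. -/
noncomputable def pd (i : Fin n) (f : EuclideanSpace ℝ (Fin n) → ℝ) (x : EuclideanSpace ℝ (Fin n)) : ℝ :=
  fderiv ℝ f x (EuclideanSpace.single i 1)

/-- The Laplacian as the sum of the pure second partial derivatives. -/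
noncomputable def lap (f : EuclideanSpace ℝ (Fin n) → ℝ) (x : EuclideanSpace ℝ (Fin n)) : ℝ :=
  ∑ i, pd i (pd i f) x

variable {f g h φ ψ : EuclideanSpace ℝ (Fin n) → ℝ} {Ω : Set (EuclideanSpace ℝ (Fin n))}

theorem contDiffOn_pd {m k : WithTop ℕ∞} (hΩ : IsOpen Ω) (hf : ContDiffOn ℝ k f Ω)
    (hmk : m + 1 ≤ k) (i : Fin n) : ContDiffOn ℝ m (pd i f) Ω :=
  (hf.fderiv_of_isOpen hΩ hmk).clm_apply contDiffOn_const

theorem contDiff_of_tsupport_subset {k : WithTop ℕ∞} (hΩ : IsOpen Ω) (hg : ContDiffOn ℝ k g Ω)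
    (hs : tsupport g ⊆ Ω) : ContDiff ℝ k g := by
  rw [contDiff_iff_contDiffAt]
  intro x
  by_cases hx : x ∈ Ω
  · exact hg.contDiffAt (hΩ.mem_nhds hx)
  · refine contDiffAt_const.congr_of_eventuallyEq
      (notMem_tsupport_iff_eventuallyEq.1 fun h => hx (hs h))

theorem pd_eq_zero_of_notMem (i : Fin n) {x : EuclideanSpace ℝ (Fin n)} (hx : x ∉ tsupport φ) :
    pd i φ x = 0 := by
  rw [pd, image_eq_zero_of_notMem_tsupport fun h => hx (tsupport_fderiv_subset ℝ h)]
  simp

/-- A product with a function supported in `Ω` is integrable when it is continuous on `Ω`. -/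
theorem integrable_of_support (_hΩ : IsOpen Ω) {K : Set (EuclideanSpace ℝ (Fin n))}
    (hK : IsCompact K) (hKΩ : K ⊆ Ω) (hg : ContinuousOn g Ω) (hs : ∀ x ∉ K, g x = 0) :
    Integrable g :=
  ((hg.mono hKΩ).integrableOn_compact hK).integrable_of_forall_notMem_eq_zero hs

theorem continuousOn_pd {k : WithTop ℕ∞} (hΩ : IsOpen Ω) (hf : ContDiffOn ℝ k f Ω) (hk : 1 ≤ k)
    (i : Fin n) : ContinuousOn (pd i f) Ω :=
  ((contDiffOn_pd (m := 0) hΩ hf (by simpa using hk) i)).continuousOn

/-- Integration by parts against a test function supported in `Ω`. -/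
theorem integral_pd_mul (hΩ : IsOpen Ω) (hg : ContDiffOn ℝ 1 g Ω) (hφ : ContDiff ℝ 1 φ)
    (hc : HasCompactSupport φ) (hs : tsupport φ ⊆ Ω) (i : Fin n) :
    ∫ x, g x * pd i φ x = -∫ x, pd i g x * φ x := by
  have hgd : ∀ x ∈ tsupport φ, DifferentiableAt ℝ g x := fun x hx =>
    (hg.contDiffAt (hΩ.mem_nhds (hs hx))).differentiableAt (by norm_num)
  refine integral_mul_fderiv_eq_neg_fderiv_mul_of_integrable ?_ ?_ ?_ hgd
    (fun x _ => hφ.differentiable (by norm_num) x)
  · exact integrable_of_support hΩ hc hs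
      ((continuousOn_pd hΩ hg le_rfl i).mul hφ.continuous.continuousOn)
      fun x hx => by simp [image_eq_zero_of_notMem_tsupport hx]
  · refine integrable_of_support hΩ hc hs
      (hg.continuousOn.mul ((hφ.continuous_fderiv (by norm_num)).clm_apply
        continuous_const).continuousOn) fun x hx => ?_
    have := pd_eq_zero_of_notMem i hx
    rw [pd] at this
    simp [this]
  · exact integrable_of_support hΩ hc hs (hg.continuousOn.mul hφ.continuous.continuousOn)
      fun x hx => by simp [image_eq_zero_of_notMem_tsupport hx]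

theorem pd_symm (hΩ : IsOpen Ω) (hf : ContDiffOn ℝ 2 f Ω) {x : EuclideanSpace ℝ (Fin n)}
    (hx : x ∈ Ω) (i j : Fin n) : pd i (pd j f) x = pd j (pd i f) x := by
  have h2 : ContDiffAt ℝ 2 f x := hf.contDiffAt (hΩ.mem_nhds hx)
  have hd : DifferentiableAt ℝ (fderiv ℝ f) x :=
    (h2.fderiv_right (m := 1) (by norm_num)).differentiableAt (by norm_num)
  have key : ∀ a b : Fin n, pd a (pd b f) x =
      fderiv ℝ (fderiv ℝ f) x (EuclideanSpace.single a 1) (EuclideanSpace.single b 1) := by
    intro a b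
    show fderiv ℝ (fun y => fderiv ℝ f y (EuclideanSpace.single b 1)) x _ = _
    rw [fderiv_clm_apply hd (differentiableAt_const _)]
    simp [ContinuousLinearMap.flip_apply]
  rw [key, key]
  exact h2.isSymmSndFDerivAt (by simp) _ _

/-- The Laplacian commutes weakly with a partial derivative. -/
theorem weak_commute (hΩ : IsOpen Ω) (hf : ContDiffOn ℝ 2 f Ω) (hl : ContDiffOn ℝ 1 (lap f) Ω)
    (hφ : ContDiff ℝ 2 φ) (hc : HasCompactSupport φ) (hs : tsupport φ ⊆ Ω) (j : Fin n) :
    (∑ i, ∫ x, pd j (pd i f) x * pd i φ x) + ∫ x, pd j (lap f) x * φ x = 0 := by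
  have hφ' : ∀ i, ContDiff ℝ 1 (pd i φ) := fun i =>
    (hφ.fderiv_right (m := 1) (by norm_num)).clm_apply contDiff_const
  have hsub : ∀ i, tsupport (pd i φ) ⊆ tsupport φ := fun i =>
    closure_minimal (fun x hx => by
      by_contra h
      exact hx (pd_eq_zero_of_notMem i h)) (isClosed_tsupport φ)
  have hc' : ∀ i, HasCompactSupport (pd i φ) := fun i =>
    hc.of_isClosed_subset (isClosed_tsupport _) (hsub i)
  have hf' : ∀ i, ContDiffOn ℝ 1 (pd i f) Ω := contDiffOn_pd hΩ hf (by norm_num)
  have key : ∀ i, ∫ x, pd j (pd i f) x * pd i φ x = ∫ x, pd i (pd i f) x * pd j φ x := by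
    intro i
    have e1 := integral_pd_mul hΩ (hf' i) (hφ' i) (hc' i) ((hsub i).trans hs) j
    have e2 := integral_pd_mul hΩ (hf' i) (hφ' j) (hc' j) ((hsub j).trans hs) i
    have e3 : ∫ x, pd i f x * pd j (pd i φ) x = ∫ x, pd i f x * pd i (pd j φ) x :=
      integral_congr_ae (Eventually.of_forall fun x => by
        simp only
        rw [pd_symm isOpen_univ hφ.contDiffOn (mem_univ x) i j])
    linarith
  have e4 : ∑ i, ∫ x, pd i (pd i f) x * pd j φ x = ∫ x, lap f x * pd j φ x := by
    rw [← integral_finsetSum]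
    · simp only [lap, Finset.sum_mul]
    · exact fun i _ => integrable_of_support hΩ hc hs
        ((continuousOn_pd hΩ (hf' i) le_rfl i).mul (hφ' j).continuous.continuousOn)
        fun x hx => by simp [pd_eq_zero_of_notMem j hx]
  rw [Finset.sum_congr rfl fun i _ => key i, e4, integral_pd_mul hΩ hl (hφ.of_le (by norm_num)) hc hs j]
  ring

/-- Difference quotients under an integral. -/
theorem tendsto_quotient (hΩ : IsOpen Ω) {K : Set (EuclideanSpace ℝ (Fin n))} (hK : IsCompact K)
    (hKΩ : K ⊆ Ω) (hh : ContinuousOn h Ω) (hs : ∀ x ∉ K, h x = 0) (hg : ContDiffOn ℝ 1 g Ω)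
    (j : Fin n) {t : ℕ → ℝ} (ht : Tendsto t atTop (𝓝 0)) (ht0 : ∀ k, t k ≠ 0) :
    Tendsto (fun k => ∫ x, h x * ((g (x + t k • EuclideanSpace.single j 1) - g x) / t k)) atTop
      (𝓝 (∫ x, h x * pd j g x)) := by
  obtain ⟨δ, hδ, hδΩ⟩ := hK.exists_cthickening_subset_open hΩ hKΩ
  set K' := cthickening δ K with hK'def
  have hK' : IsCompact K' := hK.cthickening
  obtain ⟨B, hB⟩ := hK'.exists_bound_of_continuousOn
    ((hg.continuousOn_fderiv_of_isOpen hΩ le_rfl).mono hδΩ)
  set e : EuclideanSpace ℝ (Fin n) := EuclideanSpace.single j 1 with he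
  have hne : ‖e‖ = 1 := by simp [he]
  have hmem : ∀ x ∈ K, closedBall x δ ⊆ K' := fun x hx y hy =>
    mem_cthickening_of_dist_le y x δ K hx hy
  have hev : ∀ᶠ k in atTop, |t k| ≤ δ := by
    have := (tendsto_zero_iff_abs_tendsto_zero _).1 ht
    exact this.eventually_le_const hδ
  suffices H : Tendsto (fun k => ∫ x, (if |t k| ≤ δ then
      h x * ((g (x + t k • e) - g x) / t k) else 0)) atTop (𝓝 (∫ x, h x * pd j g x)) from
    H.congr' (hev.mono fun k hk => by simp [hk])
  refine tendsto_integral_of_dominated_convergence (fun x => |h x| * B) ?_ ?_ ?_ ?_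
  · intro k
    by_cases hk : |t k| ≤ δ
    · simp only [hk, if_true]
      refine (integrable_of_support (g := fun x => h x * ((g (x + t k • e) - g x) / t k))
        (Ω := {x | x + t k • e ∈ Ω} ∩ Ω) ((hΩ.preimage (by fun_prop)).inter hΩ) hK
        (fun x hx => ⟨hδΩ (hmem x hx (by simp [norm_smul, hne, hk])), hKΩ hx⟩) ?_
        (fun x hx => by simp [hs x hx])).aestronglyMeasurable
      exact (hh.mono inter_subset_right).mul (((hg.continuousOn.comp (by fun_prop)
        fun x hx => hx.1).sub (hg.continuousOn.mono inter_subset_right)).div_const _)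
    · simp only [hk, if_false]
      exact aestronglyMeasurable_const
  · exact (integrable_of_support hΩ hK hKΩ hh.abs fun x hx => by simp [hs x hx]).mul_const B
  · refine fun k => Eventually.of_forall fun x => ?_
    by_cases hk : |t k| ≤ δ
    swap
    · simp only [hk, if_false, norm_zero]
      by_cases hx : x ∈ K
      · exact mul_nonneg (abs_nonneg _) ((norm_nonneg _).trans (hB x (self_subset_cthickening K hx)))
      · simp [hs x hx]
    simp only [hk, if_true]
    by_cases hx : x ∈ K
    swap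
    · simp [hs x hx]
    rw [norm_mul, Real.norm_eq_abs]
    gcongr
    have hb : closedBall x δ ⊆ Ω := (hmem x hx).trans hδΩ
    have := (convex_closedBall x δ).norm_image_sub_le_of_norm_fderiv_le
      (fun y hy => (hg.contDiffAt (hΩ.mem_nhds (hb hy))).differentiableAt (by norm_num))
      (fun y hy => hB y (hmem x hx hy)) (mem_closedBall_self hδ.le)
      (y := x + t k • e) (by simp [norm_smul, hne, hk])
    rw [add_sub_cancel_left, norm_smul, hne, mul_one] at this
    rw [norm_div, div_le_iff₀ (norm_pos_iff.2 (ht0 k))]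
    exact this
  · refine Eventually.of_forall fun x => ?_
    by_cases hx : x ∈ K
    swap
    · simp [hs x hx]
    have hd : HasLineDerivAt ℝ g (pd j g x) x e :=
      ((hg.contDiffAt (hΩ.mem_nhds (hKΩ hx))).differentiableAt
        (by norm_num)).hasFDerivAt.hasLineDerivAt e
    have h2 := (hasDerivAt_iff_tendsto_slope_zero.1 hd).comp
      (tendsto_nhdsWithin_iff.2 ⟨ht, Eventually.of_forall ht0⟩)
    refine ((tendsto_const_nhds (x := h x)).mul h2).congr' (hev.mono fun k hk => ?_)
    simp [hk, div_eq_inv_mul]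

end Vale.Agent.P100.Sys
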