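import Mathlib

/-!
P100, the pointwise quartic of the integral identity, as a function of the second order jet of
`f = -log u`, `g = -log v`: `H = D²f`, `a = Df`, `b = Dg`, `P₁ = v^p/u`, `P₂ = u^q/v`.
-/

namespace Vale.Agent.P100.Sys

variable {n : ℕ}

/-- Euclidean inner product of two coordinate vectors. -/
def ip (a b : Fin n → ℝ) : ℝ := ∑ i, a i * b i

/-- Squared Frobenius norm. -/
def fr (H : Fin n → Fin n → ℝ) : ℝ := ∑ i, ∑ j, H i j ^ 2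

/-- The quadratic form of a matrix on a vector. -/
def qf (H : Fin n → Fin n → ℝ) (a : Fin n → ℝ) : ℝ := ∑ i, ∑ j, H i j * a i * a j

/-- The density, relative to `u ^ μ`, of the Bochner identity for `f` plus the divergence of
`u ^ μ ((c |a|² + d₁ P₁ + d₃ P₂) a + (d₂ P₁ + d₄ P₂) b)`. -/
def jet (p q μ c d₁ d₂ d₃ d₄ : ℝ) (H : Fin n → Fin n → ℝ) (a b : Fin n → ℝ) (P₁ P₂ : ℝ) : ℝ :=
  fr H + (2 - μ) * qf H a + P₁ * (ip a a - p * ip a b) +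
    c * (2 * qf H a + ip a a * (ip a a + P₁) - μ * ip a a ^ 2) +
    d₁ * (P₁ * (ip a a - p * ip a b) + P₁ * (ip a a + P₁) - μ * P₁ * ip a a) +
    d₂ * (P₁ * (ip a b - p * ip b b) + P₁ * (ip b b + P₂) - μ * P₁ * ip a b) +
    d₃ * (P₂ * (ip a b - q * ip a a) + P₂ * (ip a a + P₁) - μ * P₂ * ip a a) +
    d₄ * (P₂ * (ip b b - q * ip a b) + P₂ * (ip b b + P₂) - μ * P₂ * ip a b)

/-- The quantity that the certificate must dominate. -/
def bulk (H : Fin n → Fin n → ℝ) (a b : Fin n → ℝ) (P₁ P₂ : ℝ) : ℝ :=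
  fr H + ip a a ^ 2 + P₁ ^ 2 + P₂ ^ 2 + (P₁ + P₂) * ip b b

/-- Pointwise coercivity of the quartic on admissible jets. -/
def Coercive (n : ℕ) (p q μ c d₁ d₂ d₃ d₄ : ℝ) : Prop :=
  ∃ γ > 0, ∀ (H : Fin n → Fin n → ℝ) (a b : Fin n → ℝ) (P₁ P₂ : ℝ),
    (∀ i j, H i j = H j i) → ∑ i, H i i = ip a a + P₁ → 0 ≤ P₁ → 0 ≤ P₂ →
      γ * bulk H a b P₁ P₂ ≤ jet p q μ c d₁ d₂ d₃ d₄ H a b P₁ P₂

end Vale.Agent.P100.Sys
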