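import Mathlib

/-!
P100: integer polynomials in two variables as lists of coefficients, for positivity certificates.
-/

namespace Vale.Agent.P100.Sys.Poly

/-- Sum of coefficient lists. -/
def add1 : List ℤ → List ℤ → List ℤ
  | [], l => l
  | a :: as, [] => a :: as
  | a :: as, b :: bs => (a + b) :: add1 as bs

/-- Scalar multiple. -/
def smul1 (c : ℤ) : List ℤ → List ℤ
  | [] => []
  | a :: as => (c * a) :: smul1 c as

/-- Product in one variable. -/
def mul1 : List ℤ → List ℤ → List ℤ
  | [], _ => []
  | a :: as, l => add1 (smul1 a l) (0 :: mul1 as l)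

/-- Value in one variable. -/
def ev1 (t : ℝ) : List ℤ → ℝ
  | [] => 0
  | a :: as => a + t * ev1 t as

theorem ev1_add (t : ℝ) : ∀ l m, ev1 t (add1 l m) = ev1 t l + ev1 t m
  | [], m => by simp [add1, ev1]
  | a :: as, [] => by simp [add1, ev1]
  | a :: as, b :: bs => by simp [add1, ev1, ev1_add t as bs]; ring

theorem ev1_smul (t : ℝ) (c : ℤ) : ∀ l, ev1 t (smul1 c l) = c * ev1 t l
  | [] => by simp [smul1, ev1]
  | a :: as => by simp [smul1, ev1, ev1_smul t c as]; ring

theorem ev1_mul (t : ℝ) : ∀ l m, ev1 t (mul1 l m) = ev1 t l * ev1 t m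
  | [], m => by simp [mul1, ev1]
  | a :: as, m => by simp [mul1, ev1, ev1_add, ev1_smul, ev1_mul t as m]; ring

/-- Sum in two variables. -/
def add : List (List ℤ) → List (List ℤ) → List (List ℤ)
  | [], l => l
  | a :: as, [] => a :: as
  | a :: as, b :: bs => add1 a b :: add as bs

/-- Integer multiple. -/
def smul (c : ℤ) : List (List ℤ) → List (List ℤ)
  | [] => []
  | a :: as => smul1 c a :: smul c as

/-- Multiple by a polynomial in the second variable. -/
def scale (c : List ℤ) : List (List ℤ) → List (List ℤ)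
  | [] => []
  | a :: as => mul1 c a :: scale c as

/-- Product in two variables. -/
def mul : List (List ℤ) → List (List ℤ) → List (List ℤ)
  | [], _ => []
  | a :: as, l => add (scale a l) ([] :: mul as l)

/-- Value in two variables. -/
def ev (x t : ℝ) : List (List ℤ) → ℝ
  | [] => 0
  | a :: as => ev1 t a + x * ev x t as

theorem ev_add (x t : ℝ) : ∀ l m, ev x t (add l m) = ev x t l + ev x t m
  | [], m => by simp [add, ev]
  | a :: as, [] => by simp [add, ev]
  | a :: as, b :: bs => by simp [add, ev, ev1_add, ev_add x t as bs]; ring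

theorem ev_smul (x t : ℝ) (c : ℤ) : ∀ l, ev x t (smul c l) = c * ev x t l
  | [] => by simp [smul, ev]
  | a :: as => by simp [smul, ev, ev1_smul, ev_smul x t c as]; ring

theorem ev_scale (x t : ℝ) (c : List ℤ) : ∀ l, ev x t (scale c l) = ev1 t c * ev x t l
  | [] => by simp [scale, ev]
  | a :: as => by simp [scale, ev, ev1_mul, ev_scale x t c as]; ring

theorem ev_mul (x t : ℝ) : ∀ l m, ev x t (mul l m) = ev x t l * ev x t m
  | [], m => by simp [mul, ev]
  | a :: as, m => by simp [mul, ev, ev1, ev_add, ev_scale, ev_mul x t as m]; ring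

theorem ev1_nonneg {t : ℝ} (ht : 0 ≤ t) : ∀ l : List ℤ, (l.all fun c => decide (0 ≤ c)) = true →
    0 ≤ ev1 t l
  | [], _ => le_of_eq (by simp [ev1])
  | a :: as, h => by
    simp only [List.all_cons, Bool.and_eq_true, decide_eq_true_eq] at h
    have := ev1_nonneg ht as h.2
    have : (0 : ℝ) ≤ a := by exact_mod_cast h.1
    simp only [ev1]; positivity

theorem ev_nonneg {x t : ℝ} (hx : 0 ≤ x) (ht : 0 ≤ t) : ∀ l : List (List ℤ),
    (l.all fun r => r.all fun c => decide (0 ≤ c)) = true → 0 ≤ ev x t l
  | [], _ => le_of_eq (by simp [ev])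
  | a :: as, h => by
    simp only [List.all_cons, Bool.and_eq_true] at h
    have := ev_nonneg hx ht as h.2
    have := ev1_nonneg ht a h.1
    simp only [ev]; positivity

/-- All coefficients nonnegative and positive constant term. -/
def good : List (List ℤ) → Bool
  | [] => false
  | [] :: _ => false
  | (c :: r) :: as => decide (0 < c) && ((c :: r) :: as).all fun l => l.all fun d => decide (0 ≤ d)

theorem ev_pos {x t : ℝ} (hx : 0 ≤ x) (ht : 0 ≤ t) : ∀ l, good l = true → 0 < ev x t l
  | [], h => by simp [good] at h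
  | [] :: _, h => by simp [good] at h
  | (c :: r) :: as, h => by
    simp only [good, Bool.and_eq_true, decide_eq_true_eq, List.all_cons] at h
    obtain ⟨hc, ⟨-, hr⟩, has⟩ := h
    have := ev_nonneg hx ht as has
    have := ev1_nonneg ht r hr
    have : (0 : ℝ) < c := by exact_mod_cast hc
    simp only [ev, ev1]; positivity

end Vale.Agent.P100.Sys.Poly
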